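import Vale.Agent.P038.H139.Basic
import Mathlib

/-!
# The cut function and its truncated rank (P038)

`cc S = w(N[S]) - w(S)` is submodular; `R P T S` is the minimum over `P ⊆ Z ⊆ T` of
`w(T) - w(Z) + w(S ∩ N[Z])`.
-/

namespace Vale.Agent.P038.H776

open Finset Vale.Agent.P038.H139

variable {V : Type*} [Fintype V] [DecidableEq V]

/-- `c(S) = w(N[S]) - w(S)`. -/
noncomputable def cc (D : OGraph V) (w : V → ℝ) (S : Finset V) : ℝ := W w (cl D S) - W w S

theorem cl_mono' {D : OGraph V} {S T : Finset V} (h : S ⊆ T) : cl D S ⊆ cl D T := by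
  intro z hz
  rw [mem_cl] at hz ⊢
  rcases hz with hz | ⟨y, hy, hyz⟩
  · exact Or.inl (h hz)
  · exact Or.inr ⟨y, h hy, hyz⟩

theorem sub_cl {D : OGraph V} (S : Finset V) : S ⊆ cl D S := fun _ hz => mem_cl.2 (Or.inl hz)

theorem cl_union' {D : OGraph V} (S T : Finset V) : cl D (S ∪ T) = cl D S ∪ cl D T := by
  ext z
  simp only [mem_cl, Finset.mem_union]
  constructor
  · rintro ((h | h) | ⟨y, hy | hy, hyz⟩)
    · exact Or.inl (Or.inl h)
    · exact Or.inr (Or.inl h)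
    · exact Or.inl (Or.inr ⟨y, hy, hyz⟩)
    · exact Or.inr (Or.inr ⟨y, hy, hyz⟩)
  · rintro ((h | ⟨y, hy, hyz⟩) | (h | ⟨y, hy, hyz⟩))
    · exact Or.inl (Or.inl h)
    · exact Or.inr ⟨y, Or.inl hy, hyz⟩
    · exact Or.inl (Or.inr h)
    · exact Or.inr ⟨y, Or.inr hy, hyz⟩

theorem W_ui (w : V → ℝ) (A B : Finset V) : W w (A ∪ B) + W w (A ∩ B) = W w A + W w B :=
  Finset.sum_union_inter

theorem cc_submod {D : OGraph V} {w : V → ℝ} (hw : ∀ v, 0 ≤ w v) (S T : Finset V) :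
    cc D w (S ∪ T) + cc D w (S ∩ T) ≤ cc D w S + cc D w T := by
  unfold cc
  rw [cl_union']
  have h1 := W_ui w (cl D S) (cl D T)
  have h2 := W_ui w S T
  have h3 : W w (cl D (S ∩ T)) ≤ W w (cl D S ∩ cl D T) :=
    W_mono hw (Finset.subset_inter (cl_mono' Finset.inter_subset_left)
      (cl_mono' Finset.inter_subset_right))
  linarith

/-- Successive intersections do not increase the cut. -/
theorem inter_min {D : OGraph V} {w : V → ℝ} (hw : ∀ v, 0 ≤ w v) {ι : Type*}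
    [DecidableEq ι] (s : Finset ι) (F : ι → Finset V) (q : Finset V)
    (h : ∀ i ∈ s, ∀ q', q' ⊆ q → cc D w (F i) ≤ cc D w (F i ∪ q')) :
    cc D w (q.filter fun z => ∀ i ∈ s, z ∈ F i) ≤ cc D w q := by
  induction s using Finset.induction_on with
  | empty => simp
  | insert i s hi ih =>
    have h1 := ih fun j hj => h j (Finset.mem_insert_of_mem hj)
    have h2 := h i (Finset.mem_insert_self _ _) (q.filter fun z => ∀ i ∈ s, z ∈ F i)
      (Finset.filter_subset _ _)
    have h3 := cc_submod (D := D) hw (F i) (q.filter fun z => ∀ i ∈ s, z ∈ F i)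
    have h4 : (q.filter fun z => ∀ j ∈ insert i s, z ∈ F j) =
        F i ∩ (q.filter fun z => ∀ i ∈ s, z ∈ F i) := by
      ext z
      simp only [Finset.mem_filter, Finset.mem_inter, Finset.mem_insert, forall_eq_or_imp]
      tauto
    rw [h4]
    linarith

/-- The value of a set `Z`. -/
noncomputable def val (D : OGraph V) (w : V → ℝ) (T S Z : Finset V) : ℝ :=
  W w T - W w Z + W w (S ∩ cl D Z)

/-- The truncated rank. -/
noncomputable def R (D : OGraph V) (w : V → ℝ) (P T S : Finset V) : ℝ :=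
  sInf ((fun Z => val D w T S Z) '' {Z : Finset V | P ⊆ Z ∧ Z ⊆ T})

section

variable {D : OGraph V} {w : V → ℝ} {P T S : Finset V}

theorem R_le {Z : Finset V} (h1 : P ⊆ Z) (h2 : Z ⊆ T) : R D w P T S ≤ val D w T S Z :=
  csInf_le (Set.toFinite _).bddBelow ⟨Z, ⟨h1, h2⟩, rfl⟩

theorem R_att (h : P ⊆ T) (S : Finset V) :
    ∃ Z, P ⊆ Z ∧ Z ⊆ T ∧ R D w P T S = val D w T S Z := by
  have hne : ((fun Z => val D w T S Z) '' {Z : Finset V | P ⊆ Z ∧ Z ⊆ T}).Nonempty :=
    ⟨_, P, ⟨Finset.Subset.refl _, h⟩, rfl⟩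
  obtain ⟨Z, ⟨h1, h2⟩, h3⟩ := hne.csInf_mem (Set.toFinite _)
  exact ⟨Z, h1, h2, h3.symm⟩

theorem R_empty (hw : ∀ v, 0 ≤ w v) (h : P ⊆ T) : R D w P T ∅ = 0 := by
  apply le_antisymm
  · have h1 := R_le (D := D) (w := w) (S := ∅) h (Finset.Subset.refl T)
    have h2 : val D w T ∅ T = 0 := by simp [val, W]
    linarith
  · obtain ⟨Z, -, h2, h3⟩ := R_att (D := D) (w := w) h ∅
    rw [h3]
    have h4 := W_mono hw h2
    have h5 := W_nonneg hw (∅ ∩ cl D Z)
    unfold val
    linarith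

theorem R_univ (h : P ⊆ T) (hopt : ∀ Z, P ⊆ Z → Z ⊆ T → cc D w P ≤ cc D w Z) :
    R D w P T univ = W w T + cc D w P := by
  have hv : ∀ Z, val D w T univ Z = W w T + cc D w Z := by
    intro Z
    unfold val cc
    rw [Finset.univ_inter]
    ring
  apply le_antisymm
  · rw [← hv]
    exact R_le (Finset.Subset.refl _) h
  · obtain ⟨Z, h1, h2, h3⟩ := R_att (D := D) (w := w) h univ
    rw [h3, hv]
    linarith [hopt Z h1 h2]

theorem val_insert {x : V} (hx : x ∉ S) (Z : Finset V) :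
    val D w T (insert x S) Z = val D w T S Z + if x ∈ cl D Z then w x else 0 := by
  unfold val
  by_cases hz : x ∈ cl D Z
  · rw [if_pos hz, Finset.insert_inter_of_mem hz]
    have : W w (insert x (S ∩ cl D Z)) = w x + W w (S ∩ cl D Z) :=
      Finset.sum_insert fun h => hx (Finset.mem_inter.1 h).1
    rw [this]
    ring
  · rw [if_neg hz, Finset.insert_inter_of_notMem hz]
    ring

theorem inc_nonneg (hw : ∀ v, 0 ≤ w v) (h : P ⊆ T) {x : V} (hx : x ∉ S) :
    R D w P T S ≤ R D w P T (insert x S) := by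
  obtain ⟨Z, h1, h2, h3⟩ := R_att (D := D) (w := w) h (insert x S)
  rw [h3, val_insert hx]
  have h4 := R_le (D := D) (w := w) (S := S) h1 h2
  have h5 : 0 ≤ if x ∈ cl D Z then w x else 0 := by
    split_ifs
    · exact hw x
    · exact le_refl _
  linarith

theorem inc_le (hw : ∀ v, 0 ≤ w v) (h : P ⊆ T) {x : V} (hx : x ∉ S) :
    R D w P T (insert x S) ≤ R D w P T S + w x := by
  obtain ⟨Z, h1, h2, h3⟩ := R_att (D := D) (w := w) h S
  rw [h3]
  have h4 := R_le (D := D) (w := w) (S := insert x S) h1 h2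
  rw [val_insert hx] at h4
  have h5 : (if x ∈ cl D Z then w x else 0) ≤ w x := by
    split_ifs
    · exact le_refl _
    · exact hw x
  linarith

theorem inc_eq (hw : ∀ v, 0 ≤ w v) (h : P ⊆ T) {x : V} (hx : x ∉ S) (hxP : x ∈ cl D P) :
    R D w P T (insert x S) = R D w P T S + w x := by
  apply le_antisymm (inc_le hw h hx)
  obtain ⟨Z, h1, h2, h3⟩ := R_att (D := D) (w := w) h (insert x S)
  rw [h3, val_insert hx, if_pos (cl_mono' h1 hxP)]
  have h4 := R_le (D := D) (w := w) (S := S) h1 h2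
  linarith

theorem inc_zero (hw : ∀ v, 0 ≤ w v) (h : P ⊆ T) {x : V} (hx : x ∉ S) (hxT : x ∉ cl D T) :
    R D w P T (insert x S) = R D w P T S := by
  apply le_antisymm _ (inc_nonneg hw h hx)
  obtain ⟨Z, h1, h2, h3⟩ := R_att (D := D) (w := w) h S
  rw [h3]
  have h4 := R_le (D := D) (w := w) (S := insert x S) h1 h2
  rw [val_insert hx, if_neg fun h5 => hxT (cl_mono' h2 h5)] at h4
  linarith

theorem inc_mono (hw : ∀ v, 0 ≤ w v) {P2 T2 : Finset V} (h : P ⊆ T) (h' : P2 ⊆ T2)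
    (hP : P ⊆ P2) (hT : T ⊆ T2) {x : V} (hx : x ∉ S) :
    R D w P T (insert x S) - R D w P T S ≤ R D w P2 T2 (insert x S) - R D w P2 T2 S := by
  obtain ⟨Z, a1, a2, a3⟩ := R_att (D := D) (w := w) h S
  obtain ⟨Y, b1, b2, b3⟩ := R_att (D := D) (w := w) h' (insert x S)
  have h1 := R_le (D := D) (w := w) (S := insert x S) (Finset.subset_inter a1 (hP.trans b1))
    ((Finset.inter_subset_left (s₂ := Y)).trans a2)
  have h2 := R_le (D := D) (w := w) (S := S) (b1.trans (Finset.subset_union_right (s₁ := Z)))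
    (Finset.union_subset (a2.trans hT) b2)
  rw [val_insert hx] at h1
  rw [val_insert hx] at b3
  have e1 := W_ui w Z Y
  have e2 : W w (S ∩ cl D (Z ∩ Y)) + W w (S ∩ cl D (Z ∪ Y)) ≤
      W w (S ∩ cl D Z) + W w (S ∩ cl D Y) := by
    have e3 := W_ui w (S ∩ cl D Z) (S ∩ cl D Y)
    have e4 : S ∩ cl D (Z ∪ Y) = (S ∩ cl D Z) ∪ (S ∩ cl D Y) := by
      rw [cl_union', Finset.inter_union_distrib_left]
    have e5 : W w (S ∩ cl D (Z ∩ Y)) ≤ W w ((S ∩ cl D Z) ∩ (S ∩ cl D Y)) := by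
      refine W_mono hw fun z hz => ?_
      rw [Finset.mem_inter] at hz
      rw [Finset.mem_inter, Finset.mem_inter, Finset.mem_inter]
      exact ⟨⟨hz.1, cl_mono' Finset.inter_subset_left hz.2⟩,
        ⟨hz.1, cl_mono' Finset.inter_subset_right hz.2⟩⟩
    rw [e4]
    linarith
  have e6 : (if x ∈ cl D (Z ∩ Y) then w x else 0) ≤ if x ∈ cl D Y then w x else 0 := by
    by_cases hz : x ∈ cl D (Z ∩ Y)
    · rw [if_pos hz, if_pos (cl_mono' Finset.inter_subset_right hz)]
    · rw [if_neg hz]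
      split_ifs
      · exact hw x
      · exact le_refl _
  rw [a3, b3]
  unfold val at h1 h2 ⊢
  linarith

end

end Vale.Agent.P038.H776
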