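import Mathlib

/-!
# A layer cake inequality for finite sums (P038)
-/

namespace Vale.Agent.P038.H776

open Finset

theorem step_antitone (c : ℝ) : Antitone fun t : ℝ => if t ≤ c then (1 : ℝ) else 0 := by
  intro s t hst
  by_cases h : t ≤ c
  · simp [h, hst.trans h]
  · simp only [h, if_false]
    split_ifs
    · exact zero_le_one
    · exact le_refl _

theorem step_int (c a b : ℝ) :
    IntervalIntegrable (fun t : ℝ => if t ≤ c then (1 : ℝ) else 0) MeasureTheory.volume a b :=
  (step_antitone c).intervalIntegrable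

theorem step_integral {c M : ℝ} (h0 : 0 ≤ c) (h1 : c ≤ M) :
    ∫ t in (0 : ℝ)..M, (if t ≤ c then (1 : ℝ) else 0) = c := by
  rw [← intervalIntegral.integral_add_adjacent_intervals (step_int c 0 c) (step_int c c M)]
  have e1 : ∫ t in (0 : ℝ)..c, (if t ≤ c then (1 : ℝ) else 0) = c := by
    have : ∫ t in (0 : ℝ)..c, (if t ≤ c then (1 : ℝ) else 0) = ∫ _t in (0 : ℝ)..c, (1 : ℝ) := by
      apply intervalIntegral.integral_congr
      intro t ht
      rw [Set.uIcc_of_le h0] at ht
      simp [ht.2]
    rw [this]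
    simp
  have e2 : ∫ t in c..M, (if t ≤ c then (1 : ℝ) else 0) = 0 := by
    have : ∫ t in c..M, (if t ≤ c then (1 : ℝ) else 0) = ∫ _t in c..M, (0 : ℝ) := by
      apply intervalIntegral.integral_congr_ae
      refine Filter.Eventually.of_forall fun t ht => ?_
      rw [Set.uIoc_of_le h1] at ht
      simp [not_le.2 ht.1]
    rw [this]
    simp
  rw [e1, e2, add_zero]

/-- The layer cake inequality. -/
theorem layer {V : Type*} [Fintype V] (α β c d : V → ℝ) (M k : ℝ) (hM : 0 ≤ M)
    (hc : ∀ a, 0 ≤ c a ∧ c a ≤ M) (hd : ∀ a, 0 ≤ d a ∧ d a ≤ M)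
    (h : ∀ t, 0 < t → t ≤ M →
      k ≤ ∑ a, α a * (if t ≤ c a then (1 : ℝ) else 0) -
        ∑ a, β a * (if t ≤ d a then (1 : ℝ) else 0)) :
    M * k ≤ ∑ a, α a * c a - ∑ a, β a * d a := by
  have i1 : ∀ a, IntervalIntegrable (fun t : ℝ => α a * (if t ≤ c a then (1 : ℝ) else 0))
      MeasureTheory.volume 0 M := fun a => (step_int (c a) 0 M).const_mul _
  have i2 : ∀ a, IntervalIntegrable (fun t : ℝ => β a * (if t ≤ d a then (1 : ℝ) else 0))
      MeasureTheory.volume 0 M := fun a => (step_int (d a) 0 M).const_mul _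
  have s1 : IntervalIntegrable (fun t : ℝ => ∑ a, α a * (if t ≤ c a then (1 : ℝ) else 0))
      MeasureTheory.volume 0 M := by
    have e : (fun t : ℝ => ∑ a, α a * (if t ≤ c a then (1 : ℝ) else 0)) =
        ∑ a, fun t : ℝ => α a * (if t ≤ c a then (1 : ℝ) else 0) := by
      ext t
      rw [Finset.sum_apply]
    rw [e]
    exact IntervalIntegrable.sum Finset.univ fun a _ => i1 a
  have s2 : IntervalIntegrable (fun t : ℝ => ∑ a, β a * (if t ≤ d a then (1 : ℝ) else 0))
      MeasureTheory.volume 0 M := by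
    have e : (fun t : ℝ => ∑ a, β a * (if t ≤ d a then (1 : ℝ) else 0)) =
        ∑ a, fun t : ℝ => β a * (if t ≤ d a then (1 : ℝ) else 0) := by
      ext t
      rw [Finset.sum_apply]
    rw [e]
    exact IntervalIntegrable.sum Finset.univ fun a _ => i2 a
  have e1 : ∫ t in (0 : ℝ)..M, (∑ a, α a * (if t ≤ c a then (1 : ℝ) else 0) -
        ∑ a, β a * (if t ≤ d a then (1 : ℝ) else 0)) = ∑ a, α a * c a - ∑ a, β a * d a := by
    rw [intervalIntegral.integral_sub s1 s2, intervalIntegral.integral_finsetSum fun a _ => i1 a,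
      intervalIntegral.integral_finsetSum fun a _ => i2 a]
    congr 1
    · refine Finset.sum_congr rfl fun a _ => ?_
      rw [intervalIntegral.integral_const_mul, step_integral (hc a).1 (hc a).2]
    · refine Finset.sum_congr rfl fun a _ => ?_
      rw [intervalIntegral.integral_const_mul, step_integral (hd a).1 (hd a).2]
  have e2 : ∫ _t in (0 : ℝ)..M, k = M * k := by simp
  rw [← e1, ← e2]
  refine intervalIntegral.integral_mono_on_of_le_Ioo hM (by simp) (s1.sub s2) ?_
  intro t ht
  exact h t ht.1 ht.2.le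

end Vale.Agent.P038.H776
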