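import Vale.Agent.P038.H776.Cut
import Vale.Agent.P038.H776.Layer

/-!
# The shift theorem (P038)

Let `(P, Q)` be a pair of families with `N[a] ⊆ P a, Q a` such that `u ∈ P a` and `a ∈ Q u` only
for `u = a`, each `P a` and each `Q a` being cut-minimal under additions. Let `X a` and `Y a` be
the intersections of the `P y`, `Q y` over the closed in-neighbourhood of `a`. Then
`∑ w a (c (X a) + c (Y a)) ≤ ∑ w a (c (P a) + c (Q a))`.
-/

namespace Vale.Agent.P038.H776

open Finset Vale.Agent.P038.H139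

variable {V : Type*} [Fintype V] [DecidableEq V]

theorem inter_min' {D : OGraph V} {w : V → ℝ} (hw : ∀ v, 0 ≤ w v) {ι : Type*}
    [DecidableEq ι] (s : Finset ι) (F : ι → Finset V) (q : Finset V)
    (h : ∀ i ∈ s, ∀ q', q' ⊆ q → cc D w (F i) ≤ cc D w (F i ∪ q')) (X : Finset V)
    (hX : ∀ z, z ∈ X ↔ z ∈ q ∧ ∀ i ∈ s, z ∈ F i) : cc D w X ≤ cc D w q := by
  have h3 := inter_min hw s F q h
  have h4 : X = q.filter fun z => ∀ i ∈ s, z ∈ F i := by
    ext z
    rw [hX, Finset.mem_filter]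
  rwa [h4]

/-- The feasible pairs of families. -/
structure Pair (D : OGraph V) (P Q : V → Finset V) : Prop where
  hP : ∀ a, cl D {a} ⊆ P a
  hQ : ∀ a, cl D {a} ⊆ Q a
  hPQ : ∀ a u, u ∈ P a → a ∈ Q u → u = a

theorem Pair.swap {D : OGraph V} {P Q : V → Finset V} (h : Pair D P Q) : Pair D Q P :=
  ⟨h.hQ, h.hP, fun a u h1 h2 => (h.hPQ u a h2 h1).symm⟩

/-- The room for `P a`. -/
def TT (Q : V → Finset V) (a : V) : Finset V := univ.filter fun u => u = a ∨ a ∉ Q u

theorem mem_TT {Q : V → Finset V} {a u : V} : u ∈ TT Q a ↔ u = a ∨ a ∉ Q u := by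
  simp [TT]

open Classical in
/-- Intersection over the closed in-neighbourhood. -/
noncomputable def XX (D : OGraph V) (P : V → Finset V) (a : V) : Finset V :=
  univ.filter fun u => ∀ y, (y = a ∨ D.arc y a) → u ∈ P y

theorem mem_XX {D : OGraph V} {P : V → Finset V} {a u : V} :
    u ∈ XX D P a ↔ ∀ y, (y = a ∨ D.arc y a) → u ∈ P y := by
  classical
  simp [XX]

open Classical in
/-- The closed in-neighbourhood. -/
noncomputable def Nin (D : OGraph V) (a : V) : Finset V := univ.filter fun y => y = a ∨ D.arc y a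

theorem mem_Nin {D : OGraph V} {a y : V} : y ∈ Nin D a ↔ y = a ∨ D.arc y a := by
  classical
  simp [Nin]

theorem mem_cl_single {D : OGraph V} {a y : V} (h : y = a ∨ D.arc y a) : a ∈ cl D {y} := by
  rw [mem_cl]
  rcases h with h | h
  · exact Or.inl (by simp [h])
  · exact Or.inr ⟨y, by simp, h⟩

theorem mem_cl_in {D : OGraph V} {x : V} {S : Finset V} (h : x ∈ cl D S) :
    ∃ z ∈ S, z = x ∨ D.arc z x := by
  rw [mem_cl] at h
  rcases h with h | ⟨y, hy, hyx⟩
  · exact ⟨x, h, Or.inl rfl⟩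
  · exact ⟨y, hy, Or.inr hyx⟩

theorem in_mem_cl {D : OGraph V} {x z : V} {S : Finset V} (hz : z ∈ S) (h : z = x ∨ D.arc z x) :
    x ∈ cl D S := by
  rw [mem_cl]
  rcases h with h | h
  · exact Or.inl (h ▸ hz)
  · exact Or.inr ⟨z, hz, h⟩

section enum

/-- The first `k` elements in a fixed enumeration. -/
noncomputable def Sk (V : Type*) [Fintype V] [DecidableEq V] (k : ℕ) : Finset V :=
  univ.filter fun x => (Fintype.equivFin V x : ℕ) < k

theorem mem_Sk {k : ℕ} {x : V} : x ∈ Sk V k ↔ (Fintype.equivFin V x : ℕ) < k := by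
  simp [Sk]

/-- The position of `x`. -/
noncomputable def pos (x : V) : ℕ := (Fintype.equivFin V x : ℕ)

theorem notMem_Sk (x : V) : x ∉ Sk V (pos x) := by
  rw [mem_Sk]
  exact lt_irrefl _

theorem insert_Sk (x : V) : insert x (Sk V (pos x)) = Sk V (pos x + 1) := by
  ext z
  rw [Finset.mem_insert, mem_Sk, mem_Sk]
  unfold pos
  constructor
  · rintro (h | h)
    · subst h
      omega
    · omega
  · intro h
    by_cases h2 : (Fintype.equivFin V z : ℕ) < (Fintype.equivFin V x : ℕ)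
    · exact Or.inr h2
    · left
      apply (Fintype.equivFin V).injective
      apply Fin.ext
      omega

/-- The increment of the rank at `x`. -/
noncomputable def g (D : OGraph V) (w : V → ℝ) (P T : Finset V) (x : V) : ℝ :=
  R D w P T (insert x (Sk V (pos x))) - R D w P T (Sk V (pos x))

theorem sum_g (D : OGraph V) (w : V → ℝ) (P T : Finset V) :
    ∑ x, g D w P T x = R D w P T univ - R D w P T ∅ := by
  have h1 : ∀ x : V, g D w P T x =
      (fun i : Fin (Fintype.card V) => R D w P T (Sk V ((i : ℕ) + 1)) - R D w P T (Sk V (i : ℕ)))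
        (Fintype.equivFin V x) := by
    intro x
    unfold g
    rw [insert_Sk]
    rfl
  rw [Finset.sum_congr rfl fun x _ => h1 x, Equiv.sum_comp (Fintype.equivFin V)
    (fun i : Fin (Fintype.card V) => R D w P T (Sk V ((i : ℕ) + 1)) - R D w P T (Sk V (i : ℕ))),
    Fin.sum_univ_eq_sum_range (fun k => R D w P T (Sk V (k + 1)) - R D w P T (Sk V k))
      (Fintype.card V), Finset.sum_range_sub (fun k => R D w P T (Sk V k))]
  have h2 : Sk V (Fintype.card V) = univ := by
    ext z
    rw [mem_Sk]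
    simp
  have h3 : Sk V 0 = ∅ := by
    ext z
    rw [mem_Sk]
    simp
  rw [h2, h3]

end enum

section main

variable {D : OGraph V} {w : V → ℝ} {P Q : V → Finset V}

theorem P_sub (h : Pair D P Q) (a : V) : P a ⊆ TT Q a := by
  intro u hu
  rw [mem_TT]
  by_cases h1 : a ∈ Q u
  · exact Or.inl (h.hPQ a u hu h1)
  · exact Or.inr h1

theorem XX_sub_TT (h : Pair D P Q) (a : V) : XX D P a ⊆ XX D (TT Q) a := by
  intro u hu
  rw [mem_XX] at hu ⊢
  exact fun y hy => P_sub h y (hu y hy)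

theorem XX_sub (a y : V) (hy : y = a ∨ D.arc y a) : XX D P a ⊆ P y :=
  fun _ hu => mem_XX.1 hu y hy

theorem self_mem_XX (hP : ∀ a, cl D {a} ⊆ P a) (a : V) : a ∈ XX D P a :=
  mem_XX.2 fun y hy => hP y (mem_cl_single hy)

/-- The shifted families give a feasible pair again. -/
theorem shift_pair (h : Pair D P Q) :
    Pair D (fun a => cl D (XX D P a)) (fun a => cl D (XX D Q a)) := by
  refine ⟨fun a => cl_mono' ?_, fun a => cl_mono' ?_, ?_⟩
  · rw [Finset.singleton_subset_iff]
    exact self_mem_XX h.hP a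
  · rw [Finset.singleton_subset_iff]
    exact self_mem_XX h.hQ a
  · intro a b hb ha
    obtain ⟨x, hx, hxb⟩ := mem_cl_in hb
    obtain ⟨y, hy, hya⟩ := mem_cl_in ha
    have h1 : x ∈ P y := mem_XX.1 hx y hya
    have h2 : y ∈ Q x := mem_XX.1 hy x hxb
    have h3 : x = y := h.hPQ y x h1 h2
    subst h3
    -- `x ∈ P a` and `a ∈ Q x`
    have h4 : x = a := h.hPQ a x (mem_XX.1 hx a (Or.inl rfl)) (h.hQ x (mem_cl_single hya))
    have h5 : x = b := (h.hPQ x b (h.hP x (mem_cl_single hxb))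
      (mem_XX.1 hy b (Or.inl rfl))).symm
    rw [← h4, ← h5]

theorem optX (hw : ∀ v, 0 ≤ w v) (h : Pair D P Q)
    (optP : ∀ a Z, P a ⊆ Z → (∀ u ∈ Z, u = a ∨ a ∉ Q u) → cc D w (P a) ≤ cc D w Z)
    (a : V) (Z : Finset V) (h1 : XX D P a ⊆ Z) (h2 : Z ⊆ XX D (TT Q) a) :
    cc D w (XX D P a) ≤ cc D w Z := by
  refine inter_min' (D := D) hw (Nin D a) P Z ?_ _ ?_
  · intro y hy q' hq'
    refine optP y _ Finset.subset_union_left ?_
    intro u hu
    rw [Finset.mem_union] at hu
    rcases hu with hu | hu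
    · exact mem_TT.1 (P_sub h y hu)
    · exact mem_TT.1 (mem_XX.1 (h2 (hq' hu)) y (mem_Nin.1 hy))
  · intro z
    rw [mem_XX]
    constructor
    · intro h5
      exact ⟨h1 (mem_XX.2 h5), fun y hy => h5 y (mem_Nin.1 hy)⟩
    · rintro ⟨-, h5⟩ y hy
      exact h5 y (mem_Nin.2 hy)

theorem optY (hw : ∀ v, 0 ≤ w v) (h : Pair D P Q)
    (optQ : ∀ u Z, Q u ⊆ Z → (∀ y ∈ Z, y = u ∨ u ∉ P y) → cc D w (Q u) ≤ cc D w Z)
    (x : V) (q : Finset V) (h1 : XX D Q x ⊆ q) (h2 : ∀ y ∈ q, y = x ∨ x ∉ cl D (P y)) :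
    cc D w (XX D Q x) ≤ cc D w q := by
  refine inter_min' (D := D) hw (Nin D x) Q q ?_ _ ?_
  · intro z hz q' hq'
    rw [mem_Nin] at hz
    refine optQ z _ Finset.subset_union_left ?_
    have hQz : ∀ y ∈ Q z, y = z ∨ z ∉ P y := by
      intro y hy
      by_cases h5 : z ∈ P y
      · exact Or.inl (h.hPQ y z h5 hy).symm
      · exact Or.inr h5
    intro y hy
    rw [Finset.mem_union] at hy
    rcases hy with hy | hy
    · exact hQz y hy
    · rcases h2 y (hq' hy) with h5 | h5
      · subst h5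
        exact hQz y (h.hQ z (mem_cl_single hz))
      · exact Or.inr fun h6 => h5 (in_mem_cl h6 hz)
  · intro z
    rw [mem_XX]
    constructor
    · intro h5
      exact ⟨h1 (mem_XX.2 h5), fun y hy => h5 y (mem_Nin.1 hy)⟩
    · rintro ⟨-, h5⟩ y hy
      exact h5 y (mem_Nin.2 hy)

/-- The inequality in the column of `x`. -/
theorem col (hw : ∀ v, 0 ≤ w v) (h : Pair D P Q)
    (optQ : ∀ u Z, Q u ⊆ Z → (∀ y ∈ Z, y = u ∨ u ∉ P y) → cc D w (Q u) ≤ cc D w Z)
    (x : V) :
    w x * cc D w (XX D Q x) ≤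
      ∑ a, (if a = x then 0 else w a) * g D w (P a) (TT Q a) x -
      ∑ a, (if a ∈ cl D {x} then 0 else w a) * g D w (XX D P a) (XX D (TT Q) a) x := by
  have hPT : ∀ a, P a ⊆ TT Q a := P_sub h
  have hXT : ∀ a, XX D P a ⊆ XX D (TT Q) a := XX_sub_TT h
  have hx := notMem_Sk x
  have hb : ∀ P T : Finset V, P ⊆ T → 0 ≤ g D w P T x ∧ g D w P T x ≤ w x := by
    intro P T hPT
    unfold g
    exact ⟨by linarith [inc_nonneg (D := D) hw hPT hx], by linarith [inc_le (D := D) hw hPT hx]⟩
  refine layer _ _ _ _ (w x) (cc D w (XX D Q x)) (hw x) (fun a => hb _ _ (hPT a))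
    (fun a => hb _ _ (hXT a)) ?_
  intro t ht0 ht1
  set q : Finset V := univ.filter fun y => y = x ∨ g D w (P y) (TT Q y) x < t with hq
  have mq : ∀ y, y ∈ q ↔ y = x ∨ g D w (P y) (TT Q y) x < t := by
    intro y
    simp [hq]
  have h1 : XX D Q x ⊆ q := by
    intro y hy
    rw [mq]
    by_cases hyx : y = x
    · exact Or.inl hyx
    right
    have h2 : x ∉ cl D (TT Q y) := by
      intro h3
      obtain ⟨z, hz, hzx⟩ := mem_cl_in h3
      rw [mem_TT] at hz
      rcases hz with hz | hz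
      · subst hz
        have hzx' : D.arc z x := hzx.resolve_left hyx
        exact hyx (h.hPQ z x (h.hP z (mem_cl_single hzx)) (mem_XX.1 hy x (Or.inl rfl))).symm
      · exact hz (mem_XX.1 hy z hzx)
    have h3 : g D w (P y) (TT Q y) x = 0 := by
      unfold g
      rw [inc_zero hw (hPT y) hx h2, sub_self]
    rw [h3]
    exact ht0
  have h2 : ∀ y ∈ q, y = x ∨ x ∉ cl D (P y) := by
    intro y hy
    rw [mq] at hy
    rcases hy with hy | hy
    · exact Or.inl hy
    · right
      intro h3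
      have h4 : g D w (P y) (TT Q y) x = w x := by
        unfold g
        rw [inc_eq hw (hPT y) hx h3]
        ring
      rw [h4] at hy
      linarith
  have h3 := optY hw h optQ x q h1 h2
  refine h3.trans ?_
  set B : Finset V := univ.filter fun a =>
    ¬ a ∈ cl D {x} ∧ t ≤ g D w (XX D P a) (XX D (TT Q) a) x with hB
  have mB : ∀ a, a ∈ B ↔ ¬ a ∈ cl D {x} ∧ t ≤ g D w (XX D P a) (XX D (TT Q) a) x := by
    intro a
    simp [hB]
  have e1 : ∑ a, (if a = x then 0 else w a) *
      (if t ≤ g D w (P a) (TT Q a) x then (1 : ℝ) else 0) = W w (univ \ q) := by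
    have : univ \ q = univ.filter fun a => ¬ a = x ∧ t ≤ g D w (P a) (TT Q a) x := by
      ext a
      simp only [Finset.mem_sdiff, Finset.mem_univ, true_and, mq, Finset.mem_filter, not_or,
        not_lt]
    rw [this]
    unfold W
    rw [Finset.sum_filter]
    refine Finset.sum_congr rfl fun a _ => ?_
    by_cases ha : a = x
    · simp [ha]
    · by_cases hb : t ≤ g D w (P a) (TT Q a) x
      · simp [ha, hb]
      · simp [ha, hb]
  have e2 : ∑ a, (if a ∈ cl D {x} then 0 else w a) *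
      (if t ≤ g D w (XX D P a) (XX D (TT Q) a) x then (1 : ℝ) else 0) = W w B := by
    rw [hB]
    unfold W
    rw [Finset.sum_filter]
    refine Finset.sum_congr rfl fun a _ => ?_
    by_cases ha : a ∈ cl D {x}
    · simp [ha]
    · by_cases hb : t ≤ g D w (XX D P a) (XX D (TT Q) a) x
      · simp [ha, hb]
      · simp [ha, hb]
  rw [e1, e2]
  have h4 : Disjoint (cl D q) B := by
    rw [Finset.disjoint_left]
    intro a ha haB
    rw [mB] at haB
    obtain ⟨y, hy, hya⟩ := mem_cl_in ha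
    rw [mq] at hy
    rcases hy with hy | hy
    · subst hy
      exact haB.1 (mem_cl_single hya)
    · have h5 : g D w (XX D P a) (XX D (TT Q) a) x ≤ g D w (P y) (TT Q y) x := by
        unfold g
        exact inc_mono hw (hXT a) (hPT y) (XX_sub a y hya) (XX_sub a y hya) hx
      linarith [haB.2]
  have h5 : W w (cl D q) + W w B ≤ W w univ := by
    have h6 : W w (cl D q ∪ B) = W w (cl D q) + W w B := Finset.sum_union h4
    rw [← h6]
    exact W_mono hw (Finset.subset_univ _)
  have h6 : W w (univ \ q) = W w univ - W w q := W_sdiff (Finset.subset_univ _)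
  unfold cc
  linarith

/-- Sum over the columns. -/
theorem shift_aux (hw : ∀ v, 0 ≤ w v) (h : Pair D P Q)
    (optP : ∀ a Z, P a ⊆ Z → (∀ u ∈ Z, u = a ∨ a ∉ Q u) → cc D w (P a) ≤ cc D w Z)
    (optQ : ∀ u Z, Q u ⊆ Z → (∀ y ∈ Z, y = u ∨ u ∉ P y) → cc D w (Q u) ≤ cc D w Z) :
    ∑ x, w x * cc D w (XX D Q x) ≤
      ∑ a, w a * (W w (TT Q a) + cc D w (P a) - W w (XX D (TT Q) a) - cc D w (XX D P a)) := by
  have hPT : ∀ a, P a ⊆ TT Q a := P_sub h
  have hXT : ∀ a, XX D P a ⊆ XX D (TT Q) a := XX_sub_TT h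
  have h1 : ∑ x, w x * cc D w (XX D Q x) ≤
      ∑ x, (∑ a, (if a = x then 0 else w a) * g D w (P a) (TT Q a) x -
      ∑ a, (if a ∈ cl D {x} then 0 else w a) * g D w (XX D P a) (XX D (TT Q) a) x) :=
    Finset.sum_le_sum fun x _ => col hw h optQ x
  refine h1.trans (le_of_eq ?_)
  have c1 : ∑ x, ∑ a, (if a = x then 0 else w a) * g D w (P a) (TT Q a) x =
      ∑ a, ∑ x, (if a = x then 0 else w a) * g D w (P a) (TT Q a) x := Finset.sum_comm
  have c2 : ∑ x, ∑ a, (if a ∈ cl D {x} then 0 else w a) *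
      g D w (XX D P a) (XX D (TT Q) a) x = ∑ a, ∑ x, (if a ∈ cl D {x} then 0 else w a) *
      g D w (XX D P a) (XX D (TT Q) a) x := Finset.sum_comm
  rw [Finset.sum_sub_distrib, c1, c2, ← Finset.sum_sub_distrib]
  refine Finset.sum_congr rfl fun a _ => ?_
  have ga : g D w (P a) (TT Q a) a = w a := by
    unfold g
    rw [inc_eq hw (hPT a) (notMem_Sk a) (sub_cl _ (h.hP a (mem_cl_single (Or.inl rfl))))]
    ring
  have ga' : g D w (XX D P a) (XX D (TT Q) a) a = w a := by
    unfold g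
    rw [inc_eq hw (hXT a) (notMem_Sk a) (sub_cl _ (self_mem_XX h.hP a))]
    ring
  have gz : ∀ x, D.arc x a → g D w (XX D P a) (XX D (TT Q) a) x = 0 := by
    intro x hxa
    have h2 : x ∉ cl D (XX D (TT Q) a) := by
      intro h3
      obtain ⟨z, hz, hzx⟩ := mem_cl_in h3
      rcases hzx with hzx | hzx
      · subst hzx
        have h4 : z = a ∨ a ∉ Q z := mem_TT.1 (mem_XX.1 hz a (Or.inl rfl))
        rcases h4 with h4 | h4
        · subst h4
          exact D.loopless _ hxa
        · exact h4 (h.hQ z (mem_cl_single (Or.inr hxa)))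
      · have h4 : z = x ∨ x ∉ Q z := mem_TT.1 (mem_XX.1 hz x (Or.inr hxa))
        rcases h4 with h4 | h4
        · subst h4
          exact D.loopless _ hzx
        · exact h4 (h.hQ z (mem_cl_single (Or.inr hzx)))
    unfold g
    rw [inc_zero hw (hXT a) (notMem_Sk x) h2, sub_self]
  have s1 : ∑ x, (if a = x then 0 else w a) * g D w (P a) (TT Q a) x =
      w a * (W w (TT Q a) + cc D w (P a) - w a) := by
    have e1 : ∀ x, (if a = x then 0 else w a) * g D w (P a) (TT Q a) x =
        w a * g D w (P a) (TT Q a) x - if a = x then w a * w a else 0 := by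
      intro x
      by_cases hx : a = x
      · subst hx
        rw [if_pos rfl, if_pos rfl, ga]
        ring
      · rw [if_neg hx, if_neg hx]
        ring
    rw [Finset.sum_congr rfl fun x _ => e1 x, Finset.sum_sub_distrib, ← Finset.mul_sum, sum_g,
      R_empty hw (hPT a), R_univ (hPT a) (fun Z h2 h3 => optP a Z h2 fun u hu =>
        mem_TT.1 (h3 hu))]
    simp
    ring
  have s2 : ∑ x, (if a ∈ cl D {x} then 0 else w a) * g D w (XX D P a) (XX D (TT Q) a) x =
      w a * (W w (XX D (TT Q) a) + cc D w (XX D P a) - w a) := by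
    have e1 : ∀ x, (if a ∈ cl D {x} then 0 else w a) * g D w (XX D P a) (XX D (TT Q) a) x =
        w a * g D w (XX D P a) (XX D (TT Q) a) x - if a = x then w a * w a else 0 := by
      intro x
      by_cases hx : a = x
      · subst hx
        rw [if_pos (mem_cl_single (Or.inl rfl)), if_pos rfl, ga']
        ring
      · rw [if_neg hx]
        by_cases hxa : a ∈ cl D {x}
        · rw [if_pos hxa]
          obtain ⟨z, hz, hza⟩ := mem_cl_in hxa
          rw [Finset.mem_singleton] at hz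
          subst hz
          rw [gz z (hza.resolve_left fun h5 => hx h5.symm)]
          ring
        · rw [if_neg hxa]
          ring
    rw [Finset.sum_congr rfl fun x _ => e1 x, Finset.sum_sub_distrib, ← Finset.mul_sum, sum_g,
      R_empty hw (hXT a), R_univ (hXT a) (fun Z h2 h3 => optX hw h optP a Z h2 h3)]
    simp
    ring
  rw [s1, s2]
  ring

/-- The measure of the room lost by the shift is the energy of `Q`. -/
theorem room (h : Pair D P Q) :
    ∑ a, w a * (W w (TT Q a) - W w (XX D (TT Q) a)) = ∑ u, w u * cc D w (Q u) := by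
  have hsub : ∀ a, XX D (TT Q) a ⊆ TT Q a := fun a => XX_sub a a (Or.inl rfl)
  have e0 : ∀ a u, u ∈ TT Q a \ XX D (TT Q) a ↔ a ∈ cl D (Q u) \ Q u := by
    intro a u
    rw [Finset.mem_sdiff, Finset.mem_sdiff, mem_TT, mem_XX]
    constructor
    · rintro ⟨h1, h2⟩
      push Not at h2
      obtain ⟨y, hy, hyT⟩ := h2
      rw [mem_TT, not_or, not_not] at hyT
      have h3 : a ∉ Q u := by
        rcases h1 with h1 | h1
        · subst h1
          intro _
          -- `y ∈ Q u`, `y` in the closed in-neighbourhood of `u`, `u ≠ y`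
          exact hyT.1 (h.hPQ y u (h.hP y (mem_cl_single hy)) hyT.2)
        · exact h1
      exact ⟨in_mem_cl hyT.2 hy, h3⟩
    · rintro ⟨h1, h2⟩
      refine ⟨Or.inr h2, fun h3 => ?_⟩
      obtain ⟨y, hy, hya⟩ := mem_cl_in h1
      have h4 : u = y ∨ y ∉ Q u := mem_TT.1 (h3 y hya)
      rcases h4 with h4 | h4
      · subst h4
        exact h2 (h.hQ u (mem_cl_single hya))
      · exact h4 hy
  have e1 : ∀ a, w a * (W w (TT Q a) - W w (XX D (TT Q) a)) =
      ∑ u, if a ∈ cl D (Q u) \ Q u then w a * w u else 0 := by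
    intro a
    rw [← W_sdiff (hsub a)]
    unfold W
    rw [Finset.mul_sum, ← Finset.sum_filter]
    refine Finset.sum_congr ?_ fun _ _ => rfl
    ext u
    rw [Finset.mem_filter, ← e0]
    simp
  have e2 : ∀ u, w u * cc D w (Q u) =
      ∑ a, if a ∈ cl D (Q u) \ Q u then w a * w u else 0 := by
    intro u
    unfold cc
    rw [← W_sdiff (sub_cl (Q u))]
    unfold W
    rw [Finset.mul_sum, ← Finset.sum_filter]
    refine Finset.sum_congr ?_ fun _ _ => mul_comm _ _
    ext a
    simp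
  rw [Finset.sum_congr rfl fun a _ => e1 a, Finset.sum_congr rfl fun u _ => e2 u,
    Finset.sum_comm]

/-- **The shift theorem.** -/
theorem shift (hw : ∀ v, 0 ≤ w v) (h : Pair D P Q)
    (optP : ∀ a Z, P a ⊆ Z → (∀ u ∈ Z, u = a ∨ a ∉ Q u) → cc D w (P a) ≤ cc D w Z)
    (optQ : ∀ u Z, Q u ⊆ Z → (∀ y ∈ Z, y = u ∨ u ∉ P y) → cc D w (Q u) ≤ cc D w Z) :
    ∑ a, w a * cc D w (XX D P a) + ∑ a, w a * cc D w (XX D Q a) ≤
      ∑ a, w a * cc D w (P a) + ∑ a, w a * cc D w (Q a) := by
  have h1 := shift_aux hw h optP optQ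
  have h2 := room (D := D) (w := w) h
  have h3 : ∑ a, w a * (W w (TT Q a) + cc D w (P a) - W w (XX D (TT Q) a) - cc D w (XX D P a)) =
      ∑ a, w a * (W w (TT Q a) - W w (XX D (TT Q) a)) + ∑ a, w a * cc D w (P a) -
        ∑ a, w a * cc D w (XX D P a) := by
    rw [← Finset.sum_add_distrib, ← Finset.sum_sub_distrib]
    refine Finset.sum_congr rfl fun a _ => ?_
    ring
  rw [h3, h2] at h1
  linarith

end main

end Vale.Agent.P038.H776
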